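import Vale.Agent.N267.Pi1
import Mathlib.Analysis.Complex.OpenMapping
import Mathlib.Analysis.Complex.Liouville

/-!
# P267: every rational curve is one of the curves of the chain
-/

open scoped Manifold ContDiff Topology
open Set Filter Metric
open Vale.Agent.P267 Vale.Agent.P267.FL Vale.Agent.P267.H158 Vale.Agent.P267.LineX
  Vale.Agent.P267.H338

noncomputable section

namespace Vale.Agent.N267

section general

variable {M : Type*} [TopologicalSpace M] [ChartedSpace C2 M]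

theorem glue' (φ : P1Map M) (z : ℂ) (hz : z ≠ 0) : φ.f₁ z = φ.f₀ z⁻¹ := by
  have := φ.glue z⁻¹ (inv_ne_zero hz)
  rw [inv_inv] at this
  exact this.symm

theorem mem₀ (φ : P1Map M) (z : ℂ) : φ.f₀ z ∈ φ.image := Or.inl ⟨z, rfl⟩

theorem mem₁ (φ : P1Map M) (z : ℂ) : φ.f₁ z ∈ φ.image := by
  rcases eq_or_ne z 0 with rfl | hz
  · exact Or.inr rfl
  · rw [glue' φ z hz]
    exact mem₀ φ _

theorem isCompact_image (φ : P1Map M) : IsCompact φ.image := by
  have h : φ.image = φ.f₀ '' closedBall 0 1 ∪ φ.f₁ '' closedBall 0 1 := by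
    apply Set.Subset.antisymm
    · rintro _ (⟨z, rfl⟩ | rfl)
      · rcases le_or_gt ‖z‖ 1 with h | h
        · exact Or.inl ⟨z, by simpa using h, rfl⟩
        · have hz : z ≠ 0 := by
            rintro rfl
            rw [norm_zero] at h
            linarith
          refine Or.inr ⟨z⁻¹, ?_, (φ.glue z hz).symm⟩
          rw [mem_closedBall, dist_zero_right, norm_inv]
          exact inv_le_one_of_one_le₀ h.le
      · exact Or.inr ⟨0, by simp, rfl⟩
    · rintro _ (⟨z, -, rfl⟩ | ⟨z, -, rfl⟩)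
      · exact mem₀ φ z
      · exact mem₁ φ z
  rw [h]
  exact ((isCompact_closedBall _ _).image φ.holo₀.continuous).union
    ((isCompact_closedBall _ _).image φ.holo₁.continuous)

theorem subset_of_f₀ (φ : P1Map M) {C : Set M} (hC : IsClosed C) (h0 : ∀ z, φ.f₀ z ∈ C) :
    φ.image ⊆ C := by
  rintro _ (⟨z, rfl⟩ | rfl)
  · exact h0 z
  · have h1 : Filter.Tendsto φ.f₁ (𝓝[≠] 0) (𝓝 (φ.f₁ 0)) :=
      (φ.holo₁.continuous.tendsto 0).mono_left nhdsWithin_le_nhds
    refine hC.mem_of_tendsto h1 ?_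
    filter_upwards [self_mem_nhdsWithin] with w hw
    rw [glue' φ w hw]
    exact h0 _

variable [T2Space M] [IsManifold 𝓘(ℂ, C2) ω M]

omit [T2Space M] in
theorem diffOn_chart {g : ℂ → M} (hg : MDifferentiable 𝓘(ℂ) 𝓘(ℂ, C2) g) (y : M) :
    DifferentiableOn ℂ (fun z => chartAt C2 y (g z)) (g ⁻¹' (chartAt C2 y).source) := by
  intro z hz
  have h1 : MDifferentiableAt 𝓘(ℂ) 𝓘(ℂ, C2) (chartAt C2 y ∘ g) z :=
    MDifferentiableAt.comp z ((chart_mdiff (chart_mem_atlas C2 y)).mdifferentiableAt hz) (hg z)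
  exact (mdifferentiableAt_iff_differentiableAt.1 h1).differentiableWithinAt

/-- identity theorem for holomorphic curves -/
theorem const_of_eventually {g : ℂ → M} (hg : MDifferentiable 𝓘(ℂ) 𝓘(ℂ, C2) g) {w₀ : ℂ}
    (h : ∀ᶠ w in 𝓝 w₀, g w = g w₀) (z : ℂ) : g z = g w₀ := by
  set q := g w₀ with hq
  have hcl : IsClosed (interior (g ⁻¹' {q})) := by
    have hA : IsClosed (g ⁻¹' {q}) := isClosed_singleton.preimage hg.continuous
    rw [← closure_subset_iff_isClosed]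
    intro z hz
    have hzA : g z = q := hA.closure_subset (closure_mono interior_subset hz)
    set e := chartAt C2 q with he
    have hqe : q ∈ e.source := mem_chart_source _ _
    obtain ⟨r, hr, hB⟩ := Metric.isOpen_iff.1 (e.open_source.preimage hg.continuous) z
      (by rw [mem_preimage, hzA]; exact hqe)
    have han : AnalyticOnNhd ℂ (fun z => e (g z)) (ball z r) :=
      ((diffOn_chart hg q).mono hB).analyticOnNhd isOpen_ball
    obtain ⟨w, hwB, hwA⟩ := mem_closure_iff.1 hz (ball z r) isOpen_ball (mem_ball_self hr)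
    have hev : (fun z => e (g z)) =ᶠ[𝓝 w] fun _ => e q := by
      filter_upwards [isOpen_interior.mem_nhds hwA] with x hx
      rw [show g x = q from (interior_subset hx : x ∈ g ⁻¹' {q})]
    have hz0 := han.eqOn_of_preconnected_of_eventuallyEq analyticOnNhd_const
      (convex_ball z r).isPreconnected hwB hev
    exact mem_interior.2 ⟨ball z r, fun x hx => e.injOn (hB hx) hqe (hz0 hx), isOpen_ball,
      mem_ball_self hr⟩
  rcases isClopen_iff.1 (⟨hcl, isOpen_interior⟩ : IsClopen (interior (g ⁻¹' {q}))) with h0 | h0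
  · have : w₀ ∈ interior (g ⁻¹' {q}) := mem_interior_iff_mem_nhds.2 h
    rw [h0] at this
    exact this.elim
  · have : z ∈ interior (g ⁻¹' {q}) := by rw [h0]; trivial
    exact (interior_subset this : z ∈ g ⁻¹' {q})

/-- open mapping theorem for maps into an embedded line -/
theorem loc_open (C : EmbP1 M) {g : ℂ → M} (hg : MDifferentiable 𝓘(ℂ) 𝓘(ℂ, C2) g)
    (hgC : ∀ w, g w ∈ C.image) (hnc : ∃ z w, g z ≠ g w) {w₀ z₀ : ℂ} (h0 : C.f₀ z₀ = g w₀) :
    ∀ᶠ z in 𝓝 z₀, C.f₀ z ∈ range g := by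
  set e := chartAt C2 (g w₀) with he
  have hea : e ∈ atlas C2 M := chart_mem_atlas _ _
  have hw₀ : g w₀ ∈ e.source := mem_chart_source _ _
  have hz₀ : C.f₀ z₀ ∈ e.source := h0 ▸ hw₀
  have hVo : IsOpen (C.f₀ ⁻¹' e.source) := e.open_source.preimage C.holo₀.continuous
  have hu := C.differentiableOn_chart hea
  obtain ⟨i, hi⟩ : ∃ i, deriv (fun z => e (C.f₀ z)) z₀ i ≠ 0 := by
    by_contra h
    push Not at h
    exact C.deriv_chart_ne hea hz₀ (funext h)
  have hd : HasDerivAt (fun z => e (C.f₀ z) i) (deriv (fun z => e (C.f₀ z)) z₀ i) z₀ :=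
    hasDerivAt_pi.1 (hu.differentiableAt (hVo.mem_nhds hz₀)).hasDerivAt i
  obtain ⟨W, T, b, hWo, hzW, -, -, -, hab, -⟩ := local_inverse (a := fun z => e (C.f₀ z) i) hVo hz₀
    (differentiableOn_pi.1 hu i) (by rwa [hd.deriv])
  have hinj : ∀ z ∈ W, ∀ z' ∈ W, e (C.f₀ z) i = e (C.f₀ z') i → z = z' := fun z hz z' hz' h => by
    rw [← (hab z hz).2, ← (hab z' hz').2]
    exact congrArg b h
  obtain ⟨K, hK, hK0, hKs⟩ := C.exists_compact_compl z₀ hWo hzW
  have hN : ∀ᶠ w in 𝓝 w₀, g w ∈ C.f₀ '' W := by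
    filter_upwards [hg.continuous.continuousAt.preimage_mem_nhds
      (hK.isClosed.isOpen_compl.mem_nhds (h0 ▸ hK0))] with w hw
    exact (hKs (hgC w)).resolve_right hw
  have han : AnalyticAt ℂ (fun w => e (g w) i) w₀ :=
    (differentiableOn_pi.1 (diffOn_chart hg (g w₀)) i).analyticAt
      ((e.open_source.preimage hg.continuous).mem_nhds hw₀)
  rcases han.eventually_constant_or_nhds_le_map_nhds with h1 | h1
  · exfalso
    have h2 : ∀ᶠ w in 𝓝 w₀, g w = g w₀ := by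
      filter_upwards [h1, hN] with w hw ⟨z, hz, hzw⟩
      rw [← hzw, ← h0] at hw
      rw [← hzw, hinj z hz z₀ hzW hw, h0]
    obtain ⟨z, w, hzw⟩ := hnc
    exact hzw ((const_of_eventually hg h2 z).trans (const_of_eventually hg h2 w).symm)
  · have h2 : (fun w => e (g w) i) '' {w | g w ∈ C.f₀ '' W} ∈ 𝓝 (e (C.f₀ z₀) i) := by
      rw [h0]
      exact h1 (image_mem_map hN)
    filter_upwards [hd.continuousAt.preimage_mem_nhds h2, hWo.mem_nhds hzW] with z hz hzW'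
    obtain ⟨w, ⟨z', hz', hzw⟩, hw⟩ := hz
    refine ⟨w, ?_⟩
    rw [← hzw, hinj z hzW' z' hz' (by rw [hzw]; exact hw.symm)]

/-- a nonconstant map from the projective line into an embedded line is onto -/
theorem image_eq_of_subset (C : EmbP1 M) (φ : P1Map M) (hnc : ∃ z w, φ.f₀ z ≠ φ.f₀ w)
    (h : φ.image ⊆ C.image) : φ.image = C.image := by
  refine Subset.antisymm h (C.subset_of_f₀ (isCompact_image φ).isClosed ?_)
  have hnc₁ : ∃ z w, φ.f₁ z ≠ φ.f₁ w := by
    by_contra hc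
    push Not at hc
    have h1 : ∀ᶠ w in 𝓝 (1 : ℂ), φ.f₀ w = φ.f₀ 1 := by
      filter_upwards [eventually_ne_nhds one_ne_zero] with w hw
      rw [φ.glue w hw, φ.glue 1 one_ne_zero]
      exact hc _ _
    obtain ⟨z, w, hzw⟩ := hnc
    exact hzw ((const_of_eventually φ.holo₀ h1 z).trans (const_of_eventually φ.holo₀ h1 w).symm)
  have hcl : IsClopen (C.f₀ ⁻¹' φ.image) := by
    refine ⟨(isCompact_image φ).isClosed.preimage C.holo₀.continuous, ?_⟩
    rw [isOpen_iff_mem_nhds]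
    rintro z (⟨w, hw⟩ | hw)
    · filter_upwards [loc_open C φ.holo₀ (fun w => h (mem₀ φ w)) hnc hw.symm] with x hx
      exact Or.inl hx
    · filter_upwards [loc_open C φ.holo₁ (fun w => h (mem₁ φ w)) hnc₁ hw] with x ⟨y, hy⟩
      exact mem_preimage.2 (hy ▸ mem₁ φ y)
  refine (isClopen_iff.1 hcl).resolve_left fun h0 => ?_
  have h1 : ∀ z, φ.f₀ z = C.f₁ 0 := fun z => by
    rcases h (mem₀ φ z) with ⟨w, hw⟩ | hw
    · have : w ∈ C.f₀ ⁻¹' φ.image := mem_preimage.2 (hw ▸ mem₀ φ z)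
      rw [h0] at this
      exact this.elim
    · exact hw
  obtain ⟨z, w, hzw⟩ := hnc
  exact hzw ((h1 z).trans (h1 w).symm)

/-- a holomorphic curve in a countable union of embedded lines lies in one of them -/
theorem exists_subset (C : ℤ → EmbP1 M) {g : ℂ → M} (hg : MDifferentiable 𝓘(ℂ) 𝓘(ℂ, C2) g)
    (h : ∀ z, g z ∈ ⋃ j, (C j).image) : ∃ j, ∀ z, g z ∈ (C j).image := by
  by_contra hc
  push Not at hc
  have h1 : ∀ j, (g ⁻¹' (C j).image).Countable := fun j => by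
    rcases (C j).isHypersurface.subset_or hg with h0 | h0
    · obtain ⟨z, hz⟩ := hc j
      have : z ∈ g ⁻¹' (C j).image := by rw [h0]; trivial
      exact absurd this hz
    · exact H331.countable_of_isolated
        (H205.Emb.isolated_of_interior (C j).isHypersurface hg h0)
  refine not_countable_complex ((countable_iUnion h1).mono fun z _ => ?_)
  obtain ⟨j, hj⟩ := mem_iUnion.1 (h z)
  exact mem_iUnion.2 ⟨j, hj⟩

omit [T2Space M] [IsManifold 𝓘(ℂ, C2) ω M] in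
/-- compact rational curves in `Om` are contracted -/
theorem Blow.mem_Z {f : M → ℝ} {Z : Set M} (B : Blow f Z) {g : ℂ → M}
    (hg : MDifferentiable 𝓘(ℂ) 𝓘(ℂ, C2) g) (h : ∀ z, g z ∈ B.Om) (hnc : ∃ z w, g z ≠ g w)
    (z : ℂ) : g z ∈ Z := by
  have h1 : Differentiable ℂ (fun z => B.P (g z)) := fun z =>
    mdifferentiableAt_iff_differentiableAt.1 ((B.hol _ (h z)).comp z (hg z))
  have h2 := h1.apply_eq_apply_of_bounded ((isBounded_ball (x := (0 : C2)) (r := B.ε)).subset (by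
    rintro _ ⟨w, rfl⟩
    exact mem_ball_zero_iff.2 (B.lt _ (h w))))
  refine B.zero _ (h z) ?_
  by_contra h0
  obtain ⟨u, w, huw⟩ := hnc
  apply huw
  rw [← B.Θ_P _ (h u) (by rwa [h2 u z]), ← B.Θ_P _ (h w) (by rwa [h2 w z]), h2 u w]

end general

variable {X : Type} [TopologicalSpace X] [ChartedSpace C2 X] {hh : C(X, UnitAddCircle)}

theorem mdiff_of_lift {g : ℂ → Cov hh} (hc : Continuous g)
    (h : MDifferentiable 𝓘(ℂ) 𝓘(ℂ, C2) (Cov.p ∘ g)) : MDifferentiable 𝓘(ℂ) 𝓘(ℂ, C2) g := fun z =>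
  ((Cov.hasMFDerivAt_iff_p 𝓘(ℂ, C2)).2 ⟨hc.continuousAt, (h z).hasMFDerivAt⟩).mdifferentiableAt

/-- rational curves lift to the cover -/
theorem exists_lift (ψ : P1Map X) :
    ∃ φ : P1Map (Cov hh), Cov.p ∘ φ.f₀ = ψ.f₀ ∧ Cov.p ∘ φ.f₁ = ψ.f₁ := by
  obtain ⟨e, he⟩ := Cov.surjective_p (h := hh) (ψ.f₀ 1)
  obtain ⟨F₀, ⟨h₀, h₀'⟩, -⟩ := (Cov.isCoveringMap_p (h := hh)).existsUnique_continuousMap_lifts
    ⟨ψ.f₀, ψ.holo₀.continuous⟩ 1 e he
  obtain ⟨F₁, ⟨h₁, h₁'⟩, -⟩ := (Cov.isCoveringMap_p (h := hh)).existsUnique_continuousMap_lifts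
    ⟨ψ.f₁, ψ.holo₁.continuous⟩ 1 e (by
      rw [he, ψ.glue 1 one_ne_zero, inv_one]
      rfl)
  refine ⟨⟨F₀, F₁, mdiff_of_lift F₀.continuous (h₀' ▸ ψ.holo₀),
    mdiff_of_lift F₁.continuous (h₁' ▸ ψ.holo₁), fun z hz => ?_⟩, h₀', h₁'⟩
  refine (Cov.isCoveringMap_p (h := hh)).eqOn_of_comp_eqOn (g₁ := F₀) (g₂ := fun z => F₁ z⁻¹)
    (isConnected_compl_singleton_of_one_lt_rank (by simp) (0 : ℂ)).isPreconnected
    F₀.continuous.continuousOn (F₁.continuous.comp_continuousOn continuousOn_inv₀)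
    (fun w hw => ?_) (a := 1) one_ne_zero (by simp only [inv_one, h₀, h₁]) hz
  exact (congrFun h₀' w).trans ((ψ.glue w hw).trans (congrFun h₁' w⁻¹).symm)

/-- translate of a map from the projective line -/
def shiftP (k : ℤ) (φ : P1Map (Cov hh)) : P1Map (Cov hh) where
  f₀ := Cov.shift k ∘ φ.f₀
  f₁ := Cov.shift k ∘ φ.f₁
  holo₀ := mdiff_of_lift ((Cov.shift k).continuous.comp φ.holo₀.continuous) fun z =>
    (Cov.hasMFDerivAt_p 𝓘(ℂ, C2) (φ.f₀ z)).mdifferentiableAt.comp z (φ.holo₀ z)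
  holo₁ := mdiff_of_lift ((Cov.shift k).continuous.comp φ.holo₁.continuous) fun z =>
    (Cov.hasMFDerivAt_p 𝓘(ℂ, C2) (φ.f₁ z)).mdifferentiableAt.comp z (φ.holo₁ z)
  glue z hz := congrArg (Cov.shift k) (φ.glue z hz)

variable [T2Space X] [IsManifold 𝓘(ℂ, C2) ω X]

/-- **Every rational curve is the image of one of the curves.** -/
theorem rational_eq (C : ℤ → EmbP1 (Cov hh)) (B : Blow (Cov.f : Cov hh → ℝ) (⋃ j, (C j).image))
    {D : Set X} (hD : IsRationalCurve D) : ∃ j, D = Cov.p '' (C j).image := by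
  obtain ⟨ψ, hnc, rfl⟩ := hD
  obtain ⟨φ, h₀, h₁⟩ := exists_lift (hh := hh) ψ
  obtain ⟨k, hk⟩ := exists_shift B (isCompact_image φ)
  have hnc' : ∃ z w, (shiftP k φ).f₀ z ≠ (shiftP k φ).f₀ w := by
    obtain ⟨z, w, h⟩ := hnc
    refine ⟨z, w, fun e => h ?_⟩
    rw [← h₀]
    exact (congrArg Cov.p e :)
  obtain ⟨j, hj⟩ := exists_subset C (shiftP k φ).holo₀
    (B.mem_Z (shiftP k φ).holo₀ (fun z => hk _ (mem₀ φ z)) hnc')
  refine ⟨j, ?_⟩
  rw [← image_eq_of_subset (C j) _ hnc' (subset_of_f₀ _ (C j).isClosed_image hj)]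
  change range ψ.f₀ ∪ {ψ.f₁ 0} = Cov.p '' (range (shiftP k φ).f₀ ∪ {(shiftP k φ).f₁ 0})
  rw [image_union, ← range_comp, image_singleton, ← h₀, ← h₁]
  rfl

end Vale.Agent.N267
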