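import Vale.Agent.N267.Count
import Mathlib.Topology.Compactification.OnePoint.Basic
import Mathlib.Dynamics.PeriodicPts.Lemmas

/-!
# P267: the configuration of the rational curves
-/

set_option linter.unusedSectionVars false

open scoped Manifold ContDiff Topology
open Set Filter Metric
open Vale.Agent.P267 Vale.Agent.P267.FL Vale.Agent.P267.H158 Vale.Agent.P267.LineX
  Vale.Agent.P267.H338 Vale.Agent.P267.H757

noncomputable section

namespace Vale.Agent.N267

/-- nodal configurations, abstractly -/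
def Nod {ι X E : Type} [AddCommGroup E] [Module ℂ E] (v : ι → OnePoint ℂ → X)
    (t : ι → OnePoint ℂ → E) (σ : ι → ι) : Prop :=
  (∀ i z, t i z ≠ 0) ∧ ∃ a b : ι → OnePoint ℂ,
    (∀ i, v i (a i) = v (σ i) (b i) ∧ LinearIndependent ℂ ![t i (a i), t (σ i) (b i)]) ∧
    Function.Injective (fun i => v i (a i)) ∧
    ∀ i j z w, v i z = v j w → (i = j ∧ z = w) ∨ (j = σ i ∧ z = a i ∧ w = b i) ∨
      (i = σ j ∧ w = a j ∧ z = b j)

theorem Nod.map {ι X E F : Type} [AddCommGroup E] [Module ℂ E] [AddCommGroup F] [Module ℂ F]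
    {v : ι → OnePoint ℂ → X} {t : ι → OnePoint ℂ → E} {σ : ι → ι} (h : Nod v t σ)
    (L : E ≃ₗ[ℂ] F) : Nod v (fun i z => L (t i z)) σ := by
  obtain ⟨h1, a, b, h2, h3⟩ := h
  refine ⟨fun i z => by simpa using h1 i z, a, b, fun i => ⟨(h2 i).1, ?_⟩, h3⟩
  have h4 := (h2 i).2.map' L.toLinearMap L.ker
  have h5 : (L.toLinearMap ∘ ![t i (a i), t (σ i) (b i)]) =
      ![L (t i (a i)), L (t (σ i) (b i))] := by
    ext k
    fin_cases k <;> rfl
  rwa [h5] at h4

theorem Nod.restrict {ι κ X E : Type} [AddCommGroup E] [Module ℂ E] {v : ι → OnePoint ℂ → X}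
    {t : ι → OnePoint ℂ → E} {σ : ι → ι} (h : Nod v t σ) {u : κ → ι} (hu : Function.Injective u)
    {τ : κ → κ} (hτ : ∀ i, u (τ i) = σ (u i)) : Nod (fun i => v (u i)) (fun i => t (u i)) τ := by
  obtain ⟨h1, a, b, h2, h3, h4⟩ := h
  refine ⟨fun i => h1 _, fun i => a (u i), fun i => b (u i), fun i => ?_, h3.comp hu,
    fun i j z w e => ?_⟩
  · simp only [hτ]
    exact h2 (u i)
  · rcases h4 _ _ _ _ e with h | h | h
    · exact Or.inl ⟨hu h.1, h.2⟩
    · exact Or.inr (Or.inl ⟨hu (h.1.trans (hτ i).symm), h.2⟩)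
    · exact Or.inr (Or.inr ⟨hu (h.1.trans (hτ j).symm), h.2⟩)

/-- a self-map of a finite nonempty type has a cycle -/
theorem exists_cycle {ι : Type} [Finite ι] [Nonempty ι] (σ : ι → ι) :
    ∃ k > 0, ∃ u : ZMod k → ι, Function.Injective u ∧ ∀ i, u (i + 1) = σ (u i) := by
  obtain ⟨x₀⟩ := ‹Nonempty ι›
  obtain ⟨m, m', hne, he⟩ := Finite.exists_ne_map_eq_of_infinite fun m : ℕ => σ^[m] x₀
  wlog hlt : m < m' generalizing m m'
  · exact this m' m hne.symm he.symm (by omega)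
  have hper : σ^[m] x₀ ∈ Function.periodicPts σ := by
    refine ⟨m' - m, by omega, ?_⟩
    change σ^[m' - m] (σ^[m] x₀) = σ^[m] x₀
    rw [← Function.iterate_add_apply, Nat.sub_add_cancel hlt.le]
    exact he.symm
  set x := σ^[m] x₀
  have hk := Function.minimalPeriod_pos_of_mem_periodicPts hper
  have : NeZero (Function.minimalPeriod σ x) := ⟨hk.ne'⟩
  refine ⟨_, hk, fun i => σ^[i.val] x, fun i j h => ZMod.val_injective _
    (Function.iterate_injOn_Iio_minimalPeriod (ZMod.val_lt i) (ZMod.val_lt j) h), fun i => ?_⟩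
  change σ^[(i + 1).val] x = σ (σ^[i.val] x)
  rw [ZMod.val_add, Function.iterate_mod_minimalPeriod_eq, add_comm, Function.iterate_add_apply,
    ZMod.val_one_eq_one_mod, ← Function.iterate_add_apply, add_comm, Function.iterate_add_apply,
    Function.iterate_mod_minimalPeriod_eq, ← Function.iterate_add_apply,
    Function.iterate_succ_apply']

section general

variable {M : Type*} [TopologicalSpace M] [ChartedSpace C2 M]

/-- value -/
def ev' (φ : P1Map M) (z : OnePoint ℂ) : M := z.elim (φ.f₁ 0) φ.f₀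

/-- derivative -/
def tang' (φ : P1Map M) (z : OnePoint ℂ) : C2 :=
  z.elim (mfderiv 𝓘(ℂ) 𝓘(ℂ, C2) φ.f₁ 0 (1 : ℂ)) fun w => mfderiv 𝓘(ℂ) 𝓘(ℂ, C2) φ.f₀ w (1 : ℂ)

theorem range_ev' (φ : P1Map M) : range (ev' φ) = φ.image := by
  apply Subset.antisymm
  · rintro _ ⟨z, rfl⟩
    induction z using OnePoint.rec with
    | infty => exact Or.inr rfl
    | coe z => exact Or.inl ⟨z, rfl⟩
  · rintro _ (⟨z, rfl⟩ | rfl)
    · exact ⟨z, rfl⟩
    · exact ⟨OnePoint.infty, rfl⟩

theorem ev'_inj (φ : EmbP1 M) : Function.Injective (ev' φ.toP1Map) := by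
  intro z w h
  induction z using OnePoint.rec with
  | infty =>
    induction w using OnePoint.rec with
    | infty => rfl
    | coe w => exact absurd ⟨w, h.symm⟩ φ.ninf
  | coe z =>
    induction w using OnePoint.rec with
    | infty => exact absurd ⟨z, h⟩ φ.ninf
    | coe w => exact congrArg _ (φ.inj h)

theorem tang'_ne (φ : EmbP1 M) (z : OnePoint ℂ) : tang' φ.toP1Map z ≠ 0 := by
  induction z using OnePoint.rec with
  | infty => exact fun h => one_ne_zero (α := ℂ) (φ.imm₁ 0 (h.trans (map_zero _).symm))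
  | coe z => exact fun h => one_ne_zero (α := ℂ) (φ.imm₀ z (h.trans (map_zero _).symm))

theorem deriv_zero {N : M → ℝ} {U : Set M} {G : M → ℂ} {ρ : M → ℝ} (h : LocRep C2 N U G ρ)
    {g : ℂ → M} (hg : MDifferentiable 𝓘(ℂ) 𝓘(ℂ, C2) g) (h0 : ∀ z, N (g z) = 0) {z : ℂ}
    (hz : g z ∈ U) : mfderiv 𝓘(ℂ, C2) 𝓘(ℂ) G (g z) (mfderiv 𝓘(ℂ) 𝓘(ℂ, C2) g z (1 : ℂ)) = 0 := by
  have h1 : G ∘ g =ᶠ[𝓝 z] fun _ => 0 := by
    filter_upwards [hg.continuous.continuousAt.preimage_mem_nhds (h.isOpen.mem_nhds hz)] with w hw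
    have h2 := h.eq _ hw
    rw [h0 w] at h2
    have h3 := (mul_eq_zero.1 h2.symm).resolve_right (Real.exp_pos _).ne'
    simpa using h3
  have h2 := mfderiv_comp z (h.hol.mdifferentiableAt (h.isOpen.mem_nhds hz)) (hg z)
  rw [h1.mfderiv_eq, mfderiv_const] at h2
  exact (congrFun (congrArg DFunLike.coe h2) (1 : ℂ)).symm

theorem tang'_zero {N : M → ℝ} {U : Set M} {G : M → ℂ} {ρ : M → ℝ} (h : LocRep C2 N U G ρ)
    (φ : P1Map M) (h0 : ∀ x ∈ φ.image, N x = 0) {z : OnePoint ℂ} (hz : ev' φ z ∈ U) :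
    mfderiv 𝓘(ℂ, C2) 𝓘(ℂ) G (ev' φ z) (tang' φ z) = 0 := by
  induction z using OnePoint.rec with
  | infty => exact deriv_zero h φ.holo₁ (fun z => h0 _ (mem₁ φ z)) hz
  | coe z => exact deriv_zero h φ.holo₀ (fun z => h0 _ (mem₀ φ z)) hz

end general

theorem indep_of_ker {a b : C2 →L[ℂ] ℂ} (h : LinearIndependent ℂ ![a, b]) {v w : C2} (hv : v ≠ 0)
    (hw : w ≠ 0) (ha : a v = 0) (hb : b w = 0) : LinearIndependent ℂ ![v, w] := by
  rw [LinearIndependent.pair_iff' hv]
  rintro c rfl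
  have hc : c ≠ 0 := by
    rintro rfl
    exact hw (zero_smul _ _)
  have hb' : b v = 0 := by
    rw [map_smul, smul_eq_mul] at hb
    exact (mul_eq_zero.1 hb).resolve_left hc
  have hexp : ∀ (l : C2 →L[ℂ] ℂ) (x : C2), l x = x 0 * l ![1, 0] + x 1 * l ![0, 1] := fun l x => by
    have hx : x = x 0 • (![1, 0] : C2) + x 1 • (![0, 1] : C2) := by
      ext i
      fin_cases i <;> simp
    conv_lhs => rw [hx]
    rw [map_add, map_smul, map_smul, smul_eq_mul, smul_eq_mul]
  rw [LinearIndependent.pair_iff] at h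
  rw [hexp] at ha hb'
  have hdet : a ![1, 0] * b ![0, 1] - a ![0, 1] * b ![1, 0] = 0 := by
    by_contra hd
    apply hv
    ext i
    fin_cases i
    · exact mul_left_cancel₀ hd (by
        simp only [Fin.zero_eta, Pi.zero_apply]
        linear_combination b ![0, 1] * ha - a ![0, 1] * hb')
    · exact mul_left_cancel₀ hd (by
        simp only [Fin.mk_one, Pi.zero_apply]
        linear_combination a ![1, 0] * hb' - b ![1, 0] * ha)
  have h1 := h (b ![0, 1]) (-a ![0, 1]) (by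
    ext1 x
    simp only [add_apply, smul_apply, smul_eq_mul, zero_apply]
    rw [hexp a x, hexp b x]
    linear_combination x 0 * hdet)
  have h2 := h (b ![1, 0]) (-a ![1, 0]) (by
    ext1 x
    simp only [add_apply, smul_apply, smul_eq_mul, zero_apply]
    rw [hexp a x, hexp b x]
    linear_combination (-x 1) * hdet)
  have h3 := h 1 0 (by
    ext1 x
    simp only [add_apply, smul_apply, smul_eq_mul, zero_apply]
    rw [hexp a x, neg_eq_zero.1 h1.2, neg_eq_zero.1 h2.2]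
    ring)
  exact one_ne_zero h3.1

variable {X : Type} [TopologicalSpace X] [ChartedSpace C2 X]

/-- image in `X` -/
def projP {hh : C(X, UnitAddCircle)} (φ : P1Map (Cov hh)) : P1Map X where
  f₀ := Cov.p ∘ φ.f₀
  f₁ := Cov.p ∘ φ.f₁
  holo₀ z := (Cov.hasMFDerivAt_p 𝓘(ℂ, C2) (φ.f₀ z)).mdifferentiableAt.comp z (φ.holo₀ z)
  holo₁ z := (Cov.hasMFDerivAt_p 𝓘(ℂ, C2) (φ.f₁ z)).mdifferentiableAt.comp z (φ.holo₁ z)
  glue z hz := congrArg Cov.p (φ.glue z hz)

theorem ev'_projP {hh : C(X, UnitAddCircle)} (φ : P1Map (Cov hh)) (z : OnePoint ℂ) :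
    ev' (projP φ) z = Cov.p (ev' φ z) := by
  induction z using OnePoint.rec <;> rfl

theorem image_projP {hh : C(X, UnitAddCircle)} (φ : P1Map (Cov hh)) :
    (projP φ).image = Cov.p '' φ.image := by
  rw [← range_ev', ← range_ev', ← range_comp]
  exact congrArg range (funext (ev'_projP φ))

theorem ev'_shiftP {hh : C(X, UnitAddCircle)} (k : ℤ) (φ : P1Map (Cov hh)) (z : OnePoint ℂ) :
    ev' (shiftP k φ) z = Cov.shift k (ev' φ z) := by
  induction z using OnePoint.rec <;> rfl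

theorem mfderiv_p_comp {hh : C(X, UnitAddCircle)} {g : ℂ → Cov hh}
    (hg : MDifferentiable 𝓘(ℂ) 𝓘(ℂ, C2) g) (z : ℂ) :
    (mfderiv 𝓘(ℂ) 𝓘(ℂ, C2) (Cov.p ∘ g) z (1 : ℂ) : C2) = mfderiv 𝓘(ℂ) 𝓘(ℂ, C2) g z (1 : ℂ) := by
  rw [((Cov.hasMFDerivAt_iff_p 𝓘(ℂ, C2)).1 (hg z).hasMFDerivAt).2.mfderiv]
  rfl

theorem tang'_projP {hh : C(X, UnitAddCircle)} (φ : P1Map (Cov hh)) (z : OnePoint ℂ) :
    tang' (projP φ) z = tang' φ z := by
  induction z using OnePoint.rec with
  | infty => exact mfderiv_p_comp φ.holo₁ 0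
  | coe z => exact mfderiv_p_comp φ.holo₀ z

theorem tang'_shiftP {hh : C(X, UnitAddCircle)} (k : ℤ) (φ : P1Map (Cov hh)) (z : OnePoint ℂ) :
    tang' (shiftP k φ) z = tang' φ z :=
  (tang'_projP _ z).symm.trans (tang'_projP φ z)

variable [T2Space X] [CompactSpace X] [IsManifold 𝓘(ℂ, C2) ω X] {n : ℕ} {O : BlockOut X n}
  (Ch : Chain O)

theorem C_shift_int (l k : ℤ) :
    (Ch.C (l + k * n)).image = Cov.shift k '' (Ch.C l).image := by
  have h1 : ∀ l, (Ch.C (l + n)).image = Cov.shift 1 '' (Ch.C l).image := fun l => by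
    rw [Ch.C_shift]
    exact image_congr fun x _ => sh_eq_shift' _ _ _
  induction k using Int.induction_on with
  | zero => simp
  | succ k ih =>
    rw [add_mul, one_mul, ← add_assoc, h1, ih, image_image]
    exact image_congr fun x _ => by rw [← Cov.shift_add, add_comm]
  | pred k ih =>
    have h2 := h1 (l + (-k - 1) * n)
    rw [show l + (-(k : ℤ) - 1) * n + n = l + -k * n by ring, ih] at h2
    have h3 := congrArg (Cov.shift (-1) '' ·) h2
    simp only [image_image, Cov.shift_neg_shift, image_id'] at h3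
    rw [← h3]
    exact image_congr fun x _ => by rw [← Cov.shift_add, show -1 + -(k : ℤ) = -k - 1 by ring]

theorem s_int (l k : ℤ) : Ch.s (l + k * n) = Ch.s l := by
  induction k using Int.induction_on with
  | zero => simp
  | succ k ih => rw [add_mul, one_mul, ← add_assoc, Ch.s_per, ih]
  | pred k ih =>
    rw [← Ch.s_per, show l + (-(k : ℤ) - 1) * n + n = l + -k * n by ring, ih]

theorem meet {l j : ℤ} (hlt : j < l) {x : Cov O.B.hh} (hl : x ∈ (Ch.C l).image)
    (hj : x ∈ (Ch.C j).image) : j = l - Ch.s l := by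
  by_contra h
  exact Set.disjoint_left.1 (Ch.disj l j hlt h) hl hj

/-- **The configuration of the curves.** -/
theorem nod {ι : Type} (r : ι → ℤ) (hr : ∀ i j (k : ℤ), r j = r i + k * n → i = j ∧ k = 0)
    (σ : ι → ι) (hσ : ∀ i, ∃ k : ℤ, r i - Ch.s (r i) = r (σ i) + k * n) :
    Nod (fun i => ev' (projP (Ch.C (r i)).toP1Map)) (fun i => tang' (projP (Ch.C (r i)).toP1Map))
      σ := by
  choose k hk using hσ
  choose P hP using Ch.node
  have hP1 : ∀ l, P l ∈ (Ch.C l).image ∧ P l ∈ (Ch.C (l - Ch.s l)).image := fun l => by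
    have : P l ∈ (Ch.C l).image ∩ (Ch.C (l - Ch.s l)).image := by rw [hP]; rfl
    exact this
  have hmem : ∀ l z, ev' (Ch.C l).toP1Map z ∈ (Ch.C l).image := fun l z => by
    change _ ∈ (Ch.C l).toP1Map.image
    rw [← range_ev']
    exact mem_range_self z
  have hmem' : ∀ l (m : ℤ) z, Cov.shift m (ev' (Ch.C l).toP1Map z) ∈ (Ch.C (l + m * n)).image :=
    fun l m z => by
      rw [C_shift_int]
      exact mem_image_of_mem _ (hmem l z)
  have ha : ∀ i, ∃ a, ev' (Ch.C (r i)).toP1Map a = P (r i) := fun i => by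
    have h : P (r i) ∈ (Ch.C (r i)).toP1Map.image := (hP1 _).1
    rwa [← range_ev'] at h
  have hb : ∀ i, ∃ b, Cov.shift (k i) (ev' (Ch.C (r (σ i))).toP1Map b) = P (r i) := fun i => by
    have h := (hP1 (r i)).2
    rw [hk, C_shift_int] at h
    obtain ⟨y, hy, e⟩ := h
    change _ ∈ (Ch.C (r (σ i))).toP1Map.image at hy
    rw [← range_ev'] at hy
    obtain ⟨b, rfl⟩ := hy
    exact ⟨b, e⟩
  choose a ha using ha
  choose b hb using hb
  -- one half of the intersections
  have key : ∀ i j z w (m : ℤ), ev' (Ch.C (r j)).toP1Map w =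
      Cov.shift m (ev' (Ch.C (r i)).toP1Map z) → r i + m * n < r j →
      i = σ j ∧ w = a j ∧ z = b j := by
    intro i j z w m e hlt
    have h1 := meet Ch hlt (hmem _ w) (e ▸ hmem' _ m z)
    have h2 : ev' (Ch.C (r j)).toP1Map w = P (r j) := by
      have : ev' (Ch.C (r j)).toP1Map w ∈
          (Ch.C (r j)).image ∩ (Ch.C (r j - Ch.s (r j))).image :=
        ⟨hmem _ w, h1 ▸ e ▸ hmem' _ m z⟩
      rwa [hP] at this
    obtain ⟨rfl, h3⟩ := hr i (σ j) (m - k j) (by rw [hk] at h1; linear_combination -h1)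
    obtain rfl : m = k j := by omega
    exact ⟨rfl, ev'_inj _ (h2.trans (ha j).symm),
      ev'_inj _ ((Cov.shift (k j)).injective (e.symm.trans (h2.trans (hb j).symm)))⟩
  refine ⟨fun i z => ?_, a, b, fun i => ⟨?_, ?_⟩, fun i j e => ?_, fun i j z w e => ?_⟩
  · simp only [tang'_projP]
    exact tang'_ne _ z
  · simp only [ev'_projP]
    rw [ha, ← hb, Cov.p_shift]
  · simp only [tang'_projP]
    obtain ⟨U, g, ρ, hU, hg, -⟩ := Ch.Nc_red _ _ (hP1 (r i)).1
    obtain ⟨U', g', ρ', hU', hg', -⟩ := Ch.Nc_red _ _ (hP1 (r i)).2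
    refine indep_of_ker (Ch.transv _ _ (hP1 (r i)).1 (hP1 (r i)).2 U g ρ U' g' ρ' hU hU' hg hg')
      (tang'_ne _ _) (tang'_ne _ _) ?_ ?_
    · have h := tang'_zero hg (Ch.C (r i)).toP1Map (fun x hx => (Ch.Nc_zero _ x).2 hx)
        (z := a i) (by rwa [ha])
      rwa [ha] at h
    · have h := tang'_zero hg' (shiftP (k i) (Ch.C (r (σ i))).toP1Map) (fun x hx => by
        rw [← range_ev'] at hx
        obtain ⟨z, rfl⟩ := hx
        rw [Ch.Nc_zero, ev'_shiftP, hk]
        exact hmem' _ _ z) (z := b i) (by rwa [ev'_shiftP, hb])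
      rwa [ev'_shiftP, hb, tang'_shiftP] at h
  · simp only [ev'_projP, ha] at e
    obtain ⟨m, hm⟩ := Cov.p_eq_iff.1 e
    have h1 : P (r j) ∈ (Ch.C (r i + m * n)).image := by
      rw [C_shift_int, hm]
      exact mem_image_of_mem _ (hP1 _).1
    have h2 : P (r j) ∈ (Ch.C (r i + m * n - Ch.s (r i + m * n))).image := by
      rw [s_int, add_sub_right_comm, C_shift_int, hm]
      exact mem_image_of_mem _ (hP1 _).2
    have h3 := Ch.s_pos (r i + m * n)
    have h4 := Ch.s_pos (r j)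
    rcases lt_trichotomy (r i + m * n) (r j) with h | h | h
    · have h5 := meet Ch h (hP1 _).1 h1
      have h6 := meet Ch (by omega) (hP1 (r j)).1 h2
      omega
    · exact (hr i j m h.symm).1
    · have h5 := meet Ch h h1 (hP1 _).1
      have h6 := meet Ch (by omega) h1 (hP1 (r j)).2
      omega
  · simp only [ev'_projP] at e
    obtain ⟨m, hm⟩ := Cov.p_eq_iff.1 e
    rcases lt_trichotomy (r i + m * n) (r j) with h | h | h
    · exact Or.inr (Or.inr (key i j z w m hm h))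
    · obtain ⟨rfl, rfl⟩ := hr i j m h.symm
      rw [Cov.shift_zero] at hm
      exact Or.inl ⟨rfl, (ev'_inj _ hm).symm⟩
    · exact Or.inr (Or.inl (key j i w z (-m) (by rw [hm, Cov.shift_neg_shift]) (by linarith)))

end Vale.Agent.N267
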