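import Vale.Agent.P267W33.Stmt
import Mathlib.Topology.Compactification.OnePoint.Basic

/-!
# P267: nodal configurations of rational curves
-/

open scoped Manifold

namespace Vale.Agent.N267

open Vale.Agent.P267.Final

variable {X : Type} [TopologicalSpace X] [ChartedSpace (ℂ × ℂ) X]

/-- The value of `φ` at a point of `ℙ¹ = ℂ ∪ {∞}`. -/
def ev (φ : P1Map X) (z : OnePoint ℂ) : X := z.elim (φ.f₁ 0) φ.f₀

/-- The derivative of `φ` at a point of `ℙ¹` (at `∞` in the coordinate `1/z`): a tangent vector of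
`X` at the point `ev φ z`. -/
noncomputable def tang (φ : P1Map X) (z : OnePoint ℂ) : ℂ × ℂ :=
  z.elim (mfderiv 𝓘(ℂ) 𝓘(ℂ, ℂ × ℂ) φ.f₁ 0 (1 : ℂ)) fun w => mfderiv 𝓘(ℂ) 𝓘(ℂ, ℂ × ℂ) φ.f₀ w (1 : ℂ)

/-- The maps `φ i : ℙ¹ → X` are immersions; for every `i` the point `a i` of the curve `i` is glued
to the point `b i` of the curve `σ i`, with independent tangents; these nodes are distinct and there
are no other intersections or self-intersections. So the union of the images is a curve with normal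
crossings whose dual graph has the edges `i — σ i`. -/
def IsNodal {ι : Type} (φ : ι → P1Map X) (σ : ι → ι) : Prop :=
  (∀ i z, tang (φ i) z ≠ 0) ∧ ∃ a b : ι → OnePoint ℂ,
    (∀ i, ev (φ i) (a i) = ev (φ (σ i)) (b i) ∧
      LinearIndependent ℂ ![tang (φ i) (a i), tang (φ (σ i)) (b i)]) ∧
    Function.Injective (fun i => ev (φ i) (a i)) ∧
    ∀ i j z w, ev (φ i) z = ev (φ j) w → (i = j ∧ z = w) ∨ (j = σ i ∧ z = a i ∧ w = b i) ∨
      (i = σ j ∧ w = a j ∧ z = b j)

end Vale.Agent.N267
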