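import Vale.Agent.P267.H456.Gss
import Vale.Agent.P267.H205.OrdFinal

/-!
# P267: the contraction of the inner end of the infinite cyclic cover
-/

open scoped Manifold ContDiff Topology
open Set Filter
open Vale.Agent.P267 Vale.Agent.P267.FL Vale.Agent.P267.H158 Vale.Agent.P267.LineX

noncomputable section

namespace Vale.Agent.N267

/-- A neighbourhood `Om` of the end `f → -∞` with a holomorphic map `P` to a ball, which contracts
a subset of `Z` to `0` and is invertible elsewhere. -/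
structure Blow {M : Type*} [TopologicalSpace M] [ChartedSpace C2 M] (f : M → ℝ) (Z : Set M) where
  Om : Set M
  P : M → C2
  Θ : C2 → M
  ε : ℝ
  ε_pos : 0 < ε
  isOpen : IsOpen Om
  hol : ∀ y ∈ Om, MDifferentiableAt 𝓘(ℂ, C2) 𝓘(ℂ, C2) P y
  lt : ∀ y ∈ Om, ‖P y‖ < ε
  zero : ∀ y ∈ Om, P y = 0 → y ∈ Z
  dense : ∀ y ∈ Om, ∃ᶠ z in 𝓝 y, P z ≠ 0
  Θ_cont : ContinuousOn Θ {x | x ≠ 0 ∧ ‖x‖ < ε}
  Θ_mem : ∀ x, x ≠ 0 → ‖x‖ < ε → Θ x ∈ Om
  P_Θ : ∀ x, x ≠ 0 → ‖x‖ < ε → P (Θ x) = x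
  Θ_P : ∀ y ∈ Om, P y ≠ 0 → Θ (P y) = y
  low : ∃ a, ∀ y, f y < a → y ∈ Om

theorem blow_of_normA {M : Type} [TopologicalSpace M] [T2Space M] [ChartedSpace C2 M]
    [IsManifold 𝓘(ℂ, C2) ω M] (D : H759.NormA M) : Nonempty (Blow D.f D.Z) := by
  obtain ⟨S⟩ := D.exists_sel
  obtain ⟨L⟩ := H714.leaf M S.leafIn
  have hzz : ∀ y ∈ S.Om L, ∀ᶠ z in 𝓝 y, S.Pi L z = 0 → D.zz z = 0 := fun y hy => by
    filter_upwards [(S.isOpen_Om L).mem_nhds hy] with z hz hz0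
    have hzZ := S.mem_Z_of_Pi L hz hz0
    exact (D.zz_zero z (D.Z_W hzZ)).2 (Or.inl hzZ)
  have hhol : ∀ y ∈ S.Om L, S.Pi L y ≠ 0 →
      MDifferentiableAt 𝓘(ℂ, C2) 𝓘(ℂ, C2) (S.Pi L) y := fun y hy h0 => by
    obtain ⟨x, hx, -, rfl⟩ := S.Om_cases L hy h0
    exact S.Pi_hol L hx
  refine ⟨{
    Om := S.Om L
    P := S.Pi L
    Θ := L.Θ
    ε := S.ep
    ε_pos := S.ep_pos
    isOpen := S.isOpen_Om L
    hol := fun y hy => ?_
    lt := fun y hy => ?_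
    zero := fun y hy h => S.mem_Z_of_Pi L hy h
    dense := fun y hy => ?_
    Θ_cont := (S.Th_cont L).mono fun x hx => S.mem_pbd hx.1 hx.2
    Θ_mem := fun x h0 hx => Or.inr ⟨x, ⟨h0, hx⟩, rfl⟩
    P_Θ := fun x h0 hx => S.Pi_Th L (S.mem_pbd h0 hx)
    Θ_P := fun y hy h0 => ?_
    low := ?_ }⟩
  · have hyN := S.Om_Nin L hy
    refine H615.mdifferentiableAt_of_continuous (g := D.zz) ?_ ?_ ?_ (S.zz_freq hyN)
    · filter_upwards [S.isOpen_Nin.mem_nhds hyN] with z hz using D.zz_hol z (S.Nin_W hz)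
    · filter_upwards [(S.isOpen_Om L).mem_nhds hy] with z hz using S.Pi_contAt L hz
    · filter_upwards [(S.isOpen_Om L).mem_nhds hy, hzz y hy] with z hz hgz hne
      exact hhol z hz fun h => hne (hgz h)
  · by_cases h0 : S.Pi L y = 0
    · rw [h0, norm_zero]
      exact S.ep_pos
    · obtain ⟨x, hx, hx', rfl⟩ := S.Om_cases L hy h0
      rwa [S.Pi_Th L hx]
  · exact ((S.zz_freq (S.Om_Nin L hy)).and_eventually (hzz y hy)).mono fun z hz h =>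
      hz.1 (hz.2 h)
  · obtain ⟨x, hx, -, rfl⟩ := S.Om_cases L hy h0
    rw [S.Pi_Th L hx]
  · obtain ⟨δ, hδ, h⟩ := S.Om_star L one_pos
    obtain ⟨a, ha⟩ := D.A_in δ hδ
    exact ⟨a, fun y hy => (h y (ha y hy)).1⟩

theorem exists_blow {X : Type} [TopologicalSpace X] [T2Space X] [CompactSpace X]
    [ConnectedSpace X] [ChartedSpace C2 X] [IsManifold 𝓘(ℂ, C2) ω X] {n : ℕ} {O : BlockOut X n}
    (Ch : Chain O) : Nonempty (Blow (Cov.f : Cov O.B.hh → ℝ) (⋃ j, (Ch.C j).image)) := by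
  obtain ⟨G⟩ := nonempty_gauged O (H378.frameThm X n O Ch)
  obtain ⟨w, hw, hcurv⟩ := G.exists_w
  set D := Ch.toGeo G w hw hcurv with hD
  obtain ⟨i, ⟨W⟩⟩ := onWThm _ D
  have hZ : D.Z i = ⋃ j ≤ i, (Ch.C j).image := Ch.toGeo_Z G w hw hcurv i
  obtain ⟨R, hR1, hR2⟩ := H821.Geo.exists_rawA W (by
    intro a
    rw [hZ]
    exact connThm X n O Ch i a)
  obtain ⟨N, hN1, hN2⟩ := R.exists_normA H714.nfThm
  obtain ⟨B⟩ := blow_of_normA N
  have hf : N.f = Cov.f := by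
    rw [hN1, hR1]
    exact funext O.B.f_eq
  refine ⟨{ B with
    zero := fun y hy h => ?_
    low := hf ▸ B.low }⟩
  have h1 := B.zero y hy h
  rw [hN2, hR2, hZ] at h1
  simp only [mem_iUnion] at h1 ⊢
  obtain ⟨j, -, hj⟩ := h1
  exact ⟨j, hj⟩

end Vale.Agent.N267
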