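import Mathlib.AlgebraicTopology.FundamentalGroupoid.SimplyConnected
import Mathlib.Topology.Subpath
import Mathlib.Topology.LocallyConstant.Basic
import Mathlib.Analysis.Convex.Contractible
import Mathlib.Topology.Connected.LocallyPathConnected

/-!
# P267: loops in a space with a dense simply connected part and thin complement
-/

open Set Filter Topology unitInterval

namespace Vale.Agent.N267

variable {M : Type*} [TopologicalSpace M]

/-- two paths in `U` with the same ends are homotopic in the ambient space -/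
def SC (U : Set M) : Prop :=
  ∀ (a b : M) (p q : Path a b), (∀ t, p t ∈ U) → (∀ t, q t ∈ U) → p.Homotopic q

theorem sc_of_retract {E : Type*} [TopologicalSpace E] {S : Set E} (hS : SimplyConnectedSpace S)
    {W : Set M} {P : M → E} {Θ : E → M} (hP : ContinuousOn P W) (hPS : MapsTo P W S)
    (hΘ : ContinuousOn Θ S) (h : ∀ y ∈ W, Θ (P y) = y) : SC W := by
  intro a b p q hp hq
  have ha : a ∈ W := by simpa using hp 0
  have hb : b ∈ W := by simpa using hp 1
  let l : ∀ r : Path a b, (∀ t, r t ∈ W) → Path (⟨P a, hPS ha⟩ : S) ⟨P b, hPS hb⟩ := fun r hr =>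
    { toFun := fun t => ⟨P (r t), hPS (hr t)⟩
      continuous_toFun := (hP.comp_continuous r.continuous hr).subtype_mk _
      source' := by simp
      target' := by simp }
  obtain ⟨F⟩ := SimplyConnectedSpace.paths_homotopic (l p hp) (l q hq)
  refine ⟨⟨⟨⟨fun x => Θ (F x), ?_⟩, fun t => ?_, fun t => ?_⟩, ?_⟩⟩
  · exact hΘ.comp_continuous (continuous_subtype_val.comp F.continuous) fun x => (F x).2
  · change Θ (F (0, t)) = p t
    rw [F.apply_zero]
    exact h _ (hp t)
  · change Θ (F (1, t)) = q t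
    rw [F.apply_one]
    exact h _ (hq t)
  · rintro t x (rfl | rfl)
    · change Θ (F (t, 0)) = p 0
      rw [F.source, p.source]
      exact h _ ha
    · change Θ (F (t, 1)) = p 1
      rw [F.target, p.target]
      exact h _ hb

theorem trans_mem {a b c : M} {U : Set M} {p : Path a b} {q : Path b c} (hp : ∀ t, p t ∈ U)
    (hq : ∀ t, q t ∈ U) (t : I) : (p.trans q) t ∈ U := by
  have h : (p.trans q) t ∈ range p ∪ range q := by
    rw [← Path.trans_range]
    exact mem_range_self t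
  rcases h with ⟨s, hs⟩ | ⟨s, hs⟩
  · rw [← hs]
    exact hp s
  · rw [← hs]
    exact hq s

/-- a good neighbourhood -/
structure GoodU (W U : Set M) : Prop where
  isOpen : IsOpen U
  conn : IsPathConnected U
  sc : SC U
  inter : IsPathConnected (U ∩ W)

/-- the class of a path which runs in `W` and then in `U` -/
def Via (W U : Set M) (w₀ y : M) (q : Path.Homotopic.Quotient w₀ y) : Prop :=
  ∃ (w : M) (α : Path w₀ w) (β : Path w y), (∀ t, α t ∈ W) ∧ (∀ t, β t ∈ U) ∧
    q = (Path.Homotopic.Quotient.mk α).trans (Path.Homotopic.Quotient.mk β)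

open Path.Homotopic.Quotient in
theorem via_eq [LocallyPathConnectedSpace M] {W U U' : Set M} (hW : SC W) (hU : GoodU W U)
    (hU' : GoodU W U') {w₀ y : M} (hy : y ∈ closure W) {q q' : Path.Homotopic.Quotient w₀ y}
    (h : Via W U w₀ y q) (h' : Via W U' w₀ y q') : q = q' := by
  obtain ⟨w, α, β, hα, hβ, rfl⟩ := h
  obtain ⟨w', α', β', hα', hβ', rfl⟩ := h'
  have hyU : y ∈ U := by simpa using hβ 1
  have hyU' : y ∈ U' := by simpa using hβ' 1
  have h1 : pathComponentIn (U ∩ U') y ∈ 𝓝 y :=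
    pathComponentIn_mem_nhds ((hU.isOpen.inter hU'.isOpen).mem_nhds ⟨hyU, hyU'⟩)
  obtain ⟨v, hv1, hv2⟩ := mem_closure_iff_nhds.1 hy _ h1
  obtain ⟨δ, hδ⟩ := (show JoinedIn (U ∩ U') y v from hv1).symm
  have hv : v ∈ U ∩ U' := by simpa using hδ 0
  have key : ∀ (V : Set M) (_ : GoodU W V) (w : M) (α : Path w₀ w) (β : Path w y),
      (∀ t, α t ∈ W) → (∀ t, β t ∈ V) → (∀ t, δ t ∈ V) →
      ∃ ε : Path w₀ v, (∀ t, ε t ∈ W) ∧ (mk α).trans (mk β) = (mk ε).trans (mk δ) := by
    intro V hV w α β hα hβ hδ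
    obtain ⟨η, hη⟩ := hV.inter.joinedIn w ⟨by simpa using hβ 0, by simpa using hα 1⟩ v
      ⟨by simpa using hδ 0, hv2⟩
    refine ⟨α.trans η, trans_mem hα fun t => (hη t).2, ?_⟩
    rw [mk_trans, trans_assoc, ← mk_trans η δ]
    congr 1
    exact eq.2 (hV.sc _ _ _ _ hβ (trans_mem (fun t => (hη t).1) hδ))
  obtain ⟨ε, hε, e⟩ := key U hU w α β hα hβ fun t => (hδ t).1
  obtain ⟨ε', hε', e'⟩ := key U' hU' w' α' β' hα' hβ' fun t => (hδ t).2
  rw [e, e', eq.2 (hW _ _ _ _ hε hε')]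

theorem exists_via {W U : Set M} (hWc : IsPathConnected W) (hU : GoodU W U) {w₀ y : M}
    (hw : w₀ ∈ W) (hy : y ∈ U) : ∃ q, Via W U w₀ y q := by
  obtain ⟨w, hwU, hwW⟩ := hU.inter.nonempty
  obtain ⟨α, hα⟩ := hWc.joinedIn w₀ hw w hwW
  obtain ⟨β, hβ⟩ := hU.conn.joinedIn w hwU y hy
  exact ⟨_, w, α, β, hα, hβ, rfl⟩

open Path.Homotopic.Quotient in
theorem Via.trans {W U : Set M} {w₀ y z : M} {q : Path.Homotopic.Quotient w₀ y}
    (h : Via W U w₀ y q) {δ : Path y z} (hδ : ∀ t, δ t ∈ U) :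
    Via W U w₀ z (q.trans (mk δ)) := by
  obtain ⟨w, α, β, hα, hβ, rfl⟩ := h
  exact ⟨w, α, β.trans δ, hα, trans_mem hβ hδ, by rw [mk_trans, trans_assoc]⟩

open Path.Homotopic.Quotient in
/-- **Loops in `Ω` are null-homotopic** if a dense part `W` is simply connected and does not
disconnect small neighbourhoods. -/
theorem homotopic_refl [LocallyPathConnectedSpace M] {W Ω : Set M} (hW : SC W)
    (hWc : IsPathConnected W) (hd : Ω ⊆ closure W) (hg : ∀ y ∈ Ω, ∃ U, y ∈ U ∧ GoodU W U)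
    {a : M} (γ : Path a a) (hγ : ∀ t, γ t ∈ Ω) : γ.Homotopic (Path.refl a) := by
  obtain ⟨w₀, hw₀⟩ := hWc.nonempty
  choose! U hUy hU using hg
  obtain ⟨q, hq⟩ := exists_via hWc (hU _ (hγ 0)) hw₀ (hUy _ (hγ 0))
  -- the classes along the loop
  let c : ∀ t : I, Path.Homotopic.Quotient w₀ (γ t) := fun t => q.trans (mk (γ.subpath 0 t))
  have hc : ∀ s t : I, (c s).trans (mk (γ.subpath s t)) = c t := fun s t => by
    simp only [c]
    rw [trans_assoc, ← mk_trans, eq.2 ⟨Path.Homotopy.subpathTransSubpath γ 0 s t⟩]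
  let A : I → Prop := fun t => ∃ V, GoodU W V ∧ Via W V w₀ (γ t) (c t)
  have hmove : ∀ (V : Set M) (_ : GoodU W V) (s t : I), (∀ u ∈ uIcc s t, γ u ∈ V) → A s → A t := by
    rintro V hV s t hst ⟨V', hV', h⟩
    obtain ⟨q', hq'⟩ := exists_via hWc hV hw₀ (hst s left_mem_uIcc)
    obtain rfl : c s = q' := via_eq hW hV' hV (hd (hγ s)) h hq'
    refine ⟨V, hV, ?_⟩
    rw [← hc s t]
    refine hq'.trans fun u => ?_
    have h1 : γ.subpath s t u ∈ γ '' uIcc s t := by
      rw [← Path.range_subpath]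
      exact mem_range_self u
    obtain ⟨u', hu', e⟩ := h1
    rw [← e]
    exact hst u' hu'
  have hloc : IsLocallyConstant A := by
    rw [IsLocallyConstant.iff_eventually_eq]
    intro s
    have h1 : γ ⁻¹' U (γ s) ∈ 𝓝 s :=
      γ.continuous.continuousAt.preimage_mem_nhds ((hU _ (hγ s)).isOpen.mem_nhds (hUy _ (hγ s)))
    obtain ⟨r, hr, hb⟩ := Metric.mem_nhds_iff.1 h1
    filter_upwards [Metric.ball_mem_nhds s hr] with t ht
    have h2 : ∀ u ∈ uIcc s t, γ u ∈ U (γ s) := fun u hu => by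
      refine hb ?_
      have h3 : (u : ℝ) ∈ uIcc (s : ℝ) t := hu
      have h4 := abs_sub_left_of_mem_uIcc h3
      rw [Metric.mem_ball, Subtype.dist_eq, Real.dist_eq] at ht ⊢
      exact h4.trans_lt ht
    exact propext ⟨hmove _ (hU _ (hγ s)) t s (by rwa [uIcc_comm]), hmove _ (hU _ (hγ s)) s t h2⟩
  have h0 : A 0 := ⟨_, hU _ (hγ 0), hq.trans fun u => by simpa using hUy _ (hγ 0)⟩
  have h1 : A 1 := (hloc.apply_eq_of_preconnectedSpace 0 1) ▸ h0
  obtain ⟨V, hV, h1⟩ := h1
  have e : γ 1 = γ 0 := by rw [γ.source, γ.target]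
  have h2 : Via W (U (γ 0)) w₀ (γ 1) (q.cast rfl e) := by
    obtain ⟨w, α, β, hα, hβ, rfl⟩ := hq
    exact ⟨w, α, β.cast rfl e, hα, hβ, rfl⟩
  have h3 := via_eq hW hV (hU _ (hγ 0)) (hd (hγ 1)) h1 h2
  induction q using Path.Homotopic.Quotient.ind with
  | mk δ =>
    have h4 : mk (γ.subpath 0 1) = (mk δ).symm.trans (mk (δ.cast rfl e)) := by
      rw [mk_cast, ← h3, ← trans_assoc, symm_trans, refl_trans]
    rw [← mk_symm, ← mk_trans, eq] at h4
    have h5 : (δ.symm.trans (δ.cast rfl e)).Homotopic ((Path.refl (γ 0)).cast rfl e) :=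
      (Path.Homotopic.symm_trans δ).pathCast rfl e
    have h6 := (h4.trans h5).pathCast γ.source.symm γ.target.symm
    convert h6 using 1
    · ext t
      simp
    · ext t
      simp

end Vale.Agent.N267
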