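import Vale.Agent.N267.Top

/-!
# P267: the fundamental group and the rational curves of minimal class VII surfaces
-/

open scoped Manifold ContDiff
open Vale.Agent.P267.Final Vale.Agent.P267W33 Vale.Agent.N267

theorem Vale.Agent.N267.oldKato (X : Type) [TopologicalSpace X] [T2Space X]
    [CompactSpace X] [ConnectedSpace X] [ChartedSpace (ℂ × ℂ) X] [IsManifold 𝓘(ℂ, ℂ × ℂ) ω X]
    (b1 : betti X 1 = 1) (kod : KodairaNegInf X) (min : ¬ ∃ D : EffDiv X, IsRatCurve D (-1))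
    (b2 : 0 < betti X 2) :
    (∀ x : X, Nonempty (FundamentalGroup X x ≃* Multiplicative ℤ)) ∧
    (∃ (n : ℕ) (φ : Fin n → P1Map X) (σ : Fin n → Fin n), betti X 2 = n ∧
      Function.Injective (fun i => (φ i).image) ∧
      (∀ C, IsRationalCurve C ↔ ∃ i, C = (φ i).image) ∧ IsNodal φ σ) ∧
    (∃ k > 0, ∃ φ : ZMod k → P1Map X, IsNodal φ (· + 1)) ∧
    ∃ A B : Set X, IsConnected A ∧ IsConnected B ∧ ⋃₀ {C | IsRationalCurve C} = A ∪ B :=
  (main b1 kod min b2).2
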