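import Vale.Agent.N267.Kato
import Vale.Agent.N267.Loop
import Mathlib.Topology.Homotopy.Lifting

/-!
# P267: the infinite cyclic cover is simply connected
-/

open scoped Manifold ContDiff Topology
open Set Filter Metric
open Vale.Agent.P267 Vale.Agent.P267.FL Vale.Agent.P267.H158 Vale.Agent.P267.LineX

noncomputable section

namespace Vale.Agent.N267

/-- a closed ray -/
def ray : Set C2 := {x | x 1 = 0 ∧ (x 0).im = 0 ∧ 0 ≤ (x 0).re}

theorem isClosed_ray : IsClosed ray := by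
  have h0 : IsClosed {x : C2 | x 1 = 0} := isClosed_eq (by fun_prop) (by fun_prop)
  have h1 : IsClosed {x : C2 | (x 0).im = 0} := isClosed_eq (by fun_prop) (by fun_prop)
  have h2 : IsClosed {x : C2 | 0 ≤ (x 0).re} := isClosed_le (by fun_prop) (by fun_prop)
  exact h0.inter (h1.inter h2)

theorem ne_zero_of_ray {x : C2} (h : x ∉ ray) : x ≠ 0 := by
  rintro rfl
  exact h ⟨rfl, by simp, by simp⟩

theorem star_slit {ε : ℝ} (hε : 0 < ε) :
    ∃ c ∈ ball (0 : C2) ε \ ray, StarConvex ℝ c (ball (0 : C2) ε \ ray) := by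
  have hc : (![-(ε / 2 : ℝ), 0] : C2) ∈ ball (0 : C2) ε := by
    rw [mem_ball_zero_iff, pi_norm_lt_iff hε]
    intro i
    fin_cases i
    · simp only [Fin.zero_eta, Matrix.cons_val_zero, norm_neg, Complex.norm_real,
        Real.norm_eq_abs]
      rw [abs_of_pos (half_pos hε)]
      exact half_lt_self hε
    · simpa using hε
  refine ⟨![-(ε / 2 : ℝ), 0], ⟨hc, fun h => ?_⟩, fun x hx a b ha hb hab => ⟨?_, fun h => ?_⟩⟩
  · have h1 := h.2.2
    simp only [Matrix.cons_val_zero, Complex.neg_re, Complex.ofReal_re] at h1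
    linarith
  · exact convex_ball (0 : C2) ε hc hx.1 ha hb hab
  · obtain ⟨h1, h2, h3⟩ := h
    simp only [Pi.add_apply, Pi.smul_apply, Matrix.cons_val_one, Matrix.cons_val_zero, smul_zero,
      zero_add, Complex.add_im, Complex.add_re, Complex.smul_im, Complex.smul_re, Complex.neg_im,
      Complex.neg_re, Complex.ofReal_im, Complex.ofReal_re, neg_zero, smul_eq_mul, mul_zero,
      smul_eq_zero] at h1 h2 h3
    rcases hb.eq_or_lt with rfl | hb'
    · have : a = 1 := by linarith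
      subst this
      linarith
    · refine hx.2 ⟨h1.resolve_left hb'.ne', (mul_eq_zero.1 h2).resolve_left hb'.ne', ?_⟩
      have h4 : 0 ≤ b * (x 0).re := by nlinarith
      exact nonneg_of_mul_nonneg_right h4 hb'

namespace Blow

variable {M : Type*} [TopologicalSpace M] [ChartedSpace C2 M] [IsManifold 𝓘(ℂ, C2) 1 M]
  {f : M → ℝ} {Z : Set M} (B : Blow f Z)

omit [IsManifold 𝓘(ℂ, C2) 1 M] in
theorem cont : ContinuousOn B.P B.Om := fun y hy => (B.hol y hy).continuousAt.continuousWithinAt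

omit [IsManifold 𝓘(ℂ, C2) 1 M] in
theorem freq {y : M} (hy : y ∈ B.Om) : ∃ᶠ z in 𝓝 y, B.P z 1 ≠ 0 := by
  intro h
  have h1 := (B.dense y hy).and_eventually ((eventually_eventually_nhds.2 h).and
    (B.isOpen.mem_nhds hy))
  obtain ⟨z, hz0, hz1, hz2⟩ := h1.exists
  have ho : IsOpen {x : C2 | x ≠ 0 ∧ ‖x‖ < B.ε} :=
    (isOpen_ne (x := (0 : C2))).inter (isOpen_lt continuous_norm continuous_const)
  have hm := ho.mem_nhds (show B.P z ∈ _ from ⟨hz0, B.lt z hz2⟩)
  have h2 : Tendsto B.Θ (𝓝 (B.P z)) (𝓝 z) := by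
    have := B.Θ_cont.continuousAt hm
    rwa [ContinuousAt, B.Θ_P z hz2 hz0] at this
  have h3 : ∀ᶠ x in 𝓝 (B.P z), x 1 = 0 := by
    filter_upwards [h2.eventually hz1, hm] with x hx hx'
    rw [B.P_Θ x hx'.1 hx'.2] at hx
    exact not_not.1 hx
  have h4 : Tendsto (fun t : ℂ => B.P z + ![0, t]) (𝓝 0) (𝓝 (B.P z)) := by
    have : Continuous fun t : ℂ => B.P z + ![0, t] := by fun_prop
    have h5 := this.tendsto 0
    rwa [show (![0, 0] : C2) = 0 from by ext i; fin_cases i <;> rfl, add_zero] at h5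
  have h5 := h4.eventually h3
  have h6 := h3.self_of_nhds
  have h7 : ∀ᶠ t in 𝓝[≠] (0 : ℂ), False := by
    filter_upwards [nhdsWithin_le_nhds h5, self_mem_nhdsWithin] with t ht ht0
    simp only [Pi.add_apply, Matrix.cons_val_one, Matrix.cons_val_zero, h6, zero_add] at ht
    exact ht0 ht
  exact h7.exists.elim fun _ h => h

theorem loop {a : M} (γ : Path a a) (hγ : ∀ t, γ t ∈ B.Om) : γ.Homotopic (Path.refl a) := by
  have : LocallyPathConnectedSpace M := ChartedSpace.locallyPathConnectedSpace C2 M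
  obtain ⟨c, hc, hstar⟩ := star_slit B.ε_pos
  set S : Set C2 := ball (0 : C2) B.ε \ ray with hS
  set W : Set M := B.Om ∩ B.P ⁻¹' rayᶜ with hW
  have hSs : S ⊆ {x | x ≠ 0 ∧ ‖x‖ < B.ε} := fun x hx =>
    ⟨ne_zero_of_ray hx.2, mem_ball_zero_iff.1 hx.1⟩
  have hWo : IsOpen W := B.cont.isOpen_inter_preimage B.isOpen isClosed_ray.isOpen_compl
  have hWS : MapsTo B.P W S := fun y hy => ⟨mem_ball_zero_iff.2 (B.lt y hy.1), hy.2⟩
  have hWe : W = B.Θ '' S := by
    apply Subset.antisymm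
    · exact fun y hy => ⟨_, hWS hy, B.Θ_P y hy.1 (ne_zero_of_ray hy.2)⟩
    · rintro _ ⟨x, hx, rfl⟩
      refine ⟨B.Θ_mem x (hSs hx).1 (hSs hx).2, ?_⟩
      rw [mem_preimage, B.P_Θ x (hSs hx).1 (hSs hx).2]
      exact hx.2
  have hg : ∀ y ∈ B.Om, MDifferentiableAt 𝓘(ℂ, C2) 𝓘(ℂ) (fun z => B.P z 1) y := fun y hy =>
    ((ContinuousLinearMap.proj 1 : C2 →L[ℂ] ℂ).mdifferentiableAt).comp y (B.hol y hy)
  have hcl : ∀ {U : Set M}, IsOpen U → U ⊆ B.Om → U ⊆ closure {x | x ∈ U ∧ B.P x 1 ≠ 0} := by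
    intro U hU hUO y hy
    rw [mem_closure_iff_frequently]
    exact ((B.freq (hUO hy)).and_eventually (hU.mem_nhds hy)).mono fun z hz => ⟨hz.2, hz.1⟩
  have hsub : ∀ {U : Set M}, U ⊆ B.Om → {x | x ∈ U ∧ B.P x 1 ≠ 0} ⊆ U ∩ W := fun hUO x hx =>
    ⟨hx.1, hUO hx.1, fun h => hx.2 h.1⟩
  have := hstar.contractibleSpace ⟨c, hc⟩
  refine homotopic_refl (W := W) (sc_of_retract (S := S) inferInstance
    (B.cont.mono inter_subset_left) hWS (B.Θ_cont.mono hSs)
    fun y hy => B.Θ_P y hy.1 (ne_zero_of_ray hy.2)) ?_ ?_ (fun y hy => ?_) γ hγ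
  · rw [hWe]
    exact (hstar.isPathConnected hc).image' (B.Θ_cont.mono hSs)
  · exact (hcl B.isOpen Subset.rfl).trans
      (closure_mono ((hsub Subset.rfl).trans inter_subset_right))
  · set e := chartAt C2 y with he
    have hye : y ∈ e.source := mem_chart_source C2 y
    have h1 : IsOpen (e.target ∩ e.symm ⁻¹' B.Om) := e.isOpen_inter_preimage_symm B.isOpen
    obtain ⟨r, hr, hb⟩ := Metric.isOpen_iff.1 h1 (e y) ⟨e.map_source hye, by
      rw [mem_preimage, e.left_inv hye]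
      exact hy⟩
    have hbt : ball (e y) r ⊆ e.target := fun x hx => (hb hx).1
    set U : Set M := e.symm '' ball (e y) r with hU
    have hUo : IsOpen U := e.isOpen_image_symm_of_subset_target isOpen_ball hbt
    have hUO : U ⊆ B.Om := by
      rintro _ ⟨x, hx, rfl⟩
      exact (hb hx).2
    have hyU : y ∈ U := ⟨e y, mem_ball_self hr, e.left_inv hye⟩
    have hUc : IsPathConnected U :=
      ((convex_ball (e y) r).isPathConnected ⟨_, mem_ball_self hr⟩).image'
        (e.continuousOn_symm.mono hbt)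
    have hUs : U ⊆ e.source := by
      rintro _ ⟨x, hx, rfl⟩
      exact e.map_target (hbt hx)
    have := (convex_ball (e y) r).contractibleSpace ⟨_, mem_ball_self hr⟩
    refine ⟨U, hyU, hUo, hUc, sc_of_retract (S := ball (e y) r) inferInstance
      (e.continuousOn.mono hUs) ?_ (e.continuousOn_symm.mono hbt)
      (fun z hz => e.left_inv (hUs hz)), ?_⟩
    · rintro _ ⟨x, hx, rfl⟩
      rwa [e.right_inv (hbt hx)]
    · rw [← (hUo.inter hWo).isConnected_iff_isPathConnected]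
      have h2 := H175.isPreconnected_ne_zero (E := C2) hUo hUc.isConnected.isPreconnected
        (fun x hx => hg x (hUO hx)) hyU (B.freq hy)
      refine ⟨?_, h2.subset_closure (hsub hUO) (inter_subset_left.trans (hcl hUo hUO))⟩
      obtain ⟨z, hz⟩ := closure_nonempty_iff.1 ⟨y, hcl hUo hUO hyU⟩
      exact ⟨z, hsub hUO hz⟩

end Blow

variable {X : Type} [TopologicalSpace X] [ChartedSpace C2 X] [IsManifold 𝓘(ℂ, C2) ω X]
  {hh : C(X, UnitAddCircle)} {Z : Set (Cov hh)}

omit [IsManifold 𝓘(ℂ, C2) ω X] in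
/-- compact sets can be moved into `Om` -/
theorem exists_shift (B : Blow (Cov.f : Cov hh → ℝ) Z) {K : Set (Cov hh)} (hK : IsCompact K) :
    ∃ k : ℤ, ∀ y ∈ K, Cov.shift k y ∈ B.Om := by
  obtain ⟨a, ha⟩ := B.low
  obtain ⟨b, hb⟩ := (hK.image Cov.continuous_f).bddAbove
  obtain ⟨k, hk⟩ := exists_int_lt (a - b)
  refine ⟨k, fun y hy => ha _ ?_⟩
  have := hb (mem_image_of_mem _ hy)
  rw [Cov.f_shift]
  linarith

theorem simplyConnected [ConnectedSpace (Cov hh)] (B : Blow (Cov.f : Cov hh → ℝ) Z) :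
    SimplyConnectedSpace (Cov hh) := by
  have : LocallyPathConnectedSpace (Cov hh) := ChartedSpace.locallyPathConnectedSpace C2 _
  have : IsManifold 𝓘(ℂ, C2) 1 (Cov hh) := IsManifold.of_le (n := ω) le_top
  rw [simply_connected_iff_loops_nullhomotopic]
  refine ⟨.of_locallyPathConnectedSpace, fun x γ => ?_⟩
  obtain ⟨k, hk⟩ := exists_shift B (isCompact_range γ.continuous)
  have h1 := B.loop (γ.map (Cov.shift k).continuous) fun t => hk _ (mem_range_self t)
  have h2 := (h1.map ⟨Cov.shift (-k), (Cov.shift (-k)).continuous⟩).pathCast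
    (Cov.shift_neg_shift k x).symm (Cov.shift_neg_shift k x).symm
  convert h2 using 1
  · ext t
    simp
    simp
  · ext t
    simp
    simp

omit [ChartedSpace C2 X] [IsManifold 𝓘(ℂ, C2) ω X] in
theorem pi1_of_simplyConnected [SimplyConnectedSpace (Cov hh)] (x : X) :
    Nonempty (FundamentalGroup X x ≃* Multiplicative ℤ) := by
  let : AddAction ℤ (Cov hh) :=
    { vadd := fun k z => Cov.shift k z
      zero_vadd := Cov.shift_zero
      add_vadd := Cov.shift_add }
  have hq : IsAddQuotientCoveringMap (Cov.p : Cov hh → X) ℤ :=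
    { toIsQuotientMap := Cov.isOpenMap_p.isQuotientMap Cov.continuous_p Cov.surjective_p
      continuous_const_vadd := fun k => (Cov.shift k).continuous
      apply_eq_iff_mem_orbit := fun {a b} => by
        rw [eq_comm, Cov.p_eq_iff]
        exact ⟨fun ⟨k, hk⟩ => ⟨k, hk.symm⟩, fun ⟨k, hk⟩ => ⟨k, hk.symm⟩⟩
      disjoint := fun e => by
        refine ⟨Cov.f ⁻¹' ball (Cov.f e) (1 / 2),
          Cov.continuous_f.continuousAt.preimage_mem_nhds (ball_mem_nhds _ one_half_pos), ?_⟩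
        rintro k ⟨_, ⟨z, hz, rfl⟩, hz'⟩
        have h1 : |Cov.f z - Cov.f e| < 1 / 2 := hz
        have h2 : |Cov.f z + k - Cov.f e| < 1 / 2 := hz'
        rw [abs_lt] at h1 h2
        have h3 : (k : ℝ) < 1 := by linarith
        have h4 : (-1 : ℝ) < k := by linarith
        have h5 : k < 1 := by exact_mod_cast h3
        have h6 : -1 < k := by exact_mod_cast h4
        omega }
  obtain ⟨e, he⟩ := Cov.surjective_p (h := hh) x
  exact ⟨(hq.fundamentalGroupEquiv ⟨e, he⟩).trans MulOpposite.opMulEquiv.symm⟩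

end Vale.Agent.N267
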