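import Vale.Agent.N267.Cycle
import Vale.Agent.N267.Defs
import Vale.Agent.P267W33.Trans

/-!
# P267: assembly
-/

set_option linter.unusedSectionVars false

open scoped Manifold ContDiff Topology
open Set Filter
open Vale.Agent.P267 Vale.Agent.P267.FL Vale.Agent.P267.H158 Vale.Agent.P267.LineX
  Vale.Agent.P267.H338

noncomputable section

namespace Vale.Agent.N267

theorem Nod.injective {ι X E : Type} [AddCommGroup E] [Module ℂ E] {v : ι → OnePoint ℂ → X}
    {t : ι → OnePoint ℂ → E} {σ : ι → ι} (h : Nod v t σ) :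
    Function.Injective fun i => range (v i) := by
  obtain ⟨-, a, b, -, -, h⟩ := h
  intro i j e
  by_contra hij
  have h1 : ∀ z, z = a i ∨ z = b j := fun z => by
    have h2 : v i z ∈ range (v j) := (show range (v i) = range (v j) from e) ▸ mem_range_self z
    obtain ⟨w, hw⟩ := h2
    rcases h i j z w hw.symm with h | h | h
    · exact absurd h.1 hij
    · exact Or.inl h.2.1
    · exact Or.inr h.2.2
  have h2 : ((0 : ℂ) : OnePoint ℂ) ≠ (1 : ℂ) := fun h => zero_ne_one (OnePoint.coe_injective h)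
  have h3 := OnePoint.coe_ne_infty (0 : ℂ)
  have h4 := OnePoint.coe_ne_infty (1 : ℂ)
  rcases h1 (0 : ℂ) with k0 | k0 <;> rcases h1 (1 : ℂ) with k1 | k1 <;>
    rcases h1 OnePoint.infty with k2 | k2 <;> simp_all

/-- at most two classes -/
theorem two_classes {β : Type*} (s : ℤ → ℕ) (s_pos : ∀ l, 1 ≤ s l)
    (word : ∀ l j : ℤ, l - s l + 2 ≤ j → j ≤ l - 1 → s j = 1) (f : ℤ → β)
    (hf : ∀ l, f (l - s l) = f l) : ∃ a b, ∀ c, f c = f a ∨ f c = f b := by
  have h1 : ∀ (i : ℤ) (m : ℕ) (l : ℤ), i < l → l - i ≤ m →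
      ∃ l', i < l' ∧ l' - s l' ≤ i ∧ f l' = f l := by
    intro i m
    induction m with
    | zero => intro l h1 h2; omega
    | succ m ih =>
      intro l h1 h2
      by_cases h : l - s l ≤ i
      · exact ⟨l, h1, h, rfl⟩
      · have := s_pos l
        obtain ⟨l', k1, k2, k3⟩ := ih (l - s l) (by omega) (by omega)
        exact ⟨l', k1, k2, k3.trans (hf l)⟩
  have h2 : ∀ i a b c : ℤ, i < a → a < b → b < c → b - s b ≤ i → c - s c ≤ i → False := by
    intro i a b c k1 k2 k3 k4 k5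
    have := word c b (by omega) (by omega)
    omega
  have h3 : ∀ a b c, f a = f b ∨ f c = f a ∨ f c = f b := by
    intro a b c
    obtain ⟨i, ha, hb, hc⟩ : ∃ i, i < a ∧ i < b ∧ i < c :=
      ⟨min a (min b c) - 1, by omega, by omega, by omega⟩
    obtain ⟨a', a1, a2, a3⟩ := h1 i (a - i).toNat a ha (by omega)
    obtain ⟨b', b1, b2, b3⟩ := h1 i (b - i).toNat b hb (by omega)
    obtain ⟨c', c1, c2, c3⟩ := h1 i (c - i).toNat c hc (by omega)
    rw [← a3, ← b3, ← c3]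
    by_contra hcon
    push Not at hcon
    have e1 : a' ≠ b' := fun h => hcon.1 (h ▸ rfl)
    have e2 : c' ≠ a' := fun h => hcon.2.1 (h ▸ rfl)
    have e3 : c' ≠ b' := fun h => hcon.2.2 (h ▸ rfl)
    rcases lt_or_gt_of_ne e1 with p | p <;> rcases lt_or_gt_of_ne e2 with q | q <;>
      rcases lt_or_gt_of_ne e3 with r | r
    · exact h2 i c' a' b' c1 q p a2 b2
    · omega
    · exact h2 i a' c' b' a1 q r c2 b2
    · exact h2 i a' b' c' a1 p r b2 c2
    · exact h2 i c' b' a' c1 r p b2 a2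
    · exact h2 i b' c' a' b1 r q c2 a2
    · omega
    · exact h2 i b' a' c' b1 p q a2 c2
  by_cases h : ∃ b, f 0 ≠ f b
  · obtain ⟨b, hb⟩ := h
    exact ⟨0, b, fun c => (h3 0 b c).resolve_left hb⟩
  · push Not at h
    exact ⟨0, 0, fun c => Or.inl (h c).symm⟩

section

variable {X : Type} [TopologicalSpace X] [T2Space X] [CompactSpace X] [ConnectedSpace X]
  [ChartedSpace C2 X] [IsManifold 𝓘(ℂ, C2) ω X] {n : ℕ} {O : BlockOut X n} (Ch : Chain O)

theorem rational_iff {D : Set X} : IsRationalCurve D ↔ ∃ j, D = Cov.p '' (Ch.C j).image := by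
  obtain ⟨B⟩ := exists_blow Ch
  refine ⟨rational_eq Ch.C B, ?_⟩
  rintro ⟨j, rfl⟩
  refine (Ch.C j).isRationalCurve mdiff_p fun x => ?_
  obtain ⟨e, rfl⟩ := Cov.surjective_p (h := O.B.hh) x
  refine (countable_range fun k : ℤ => Cov.shift k e).mono fun y hy => ?_
  obtain ⟨k, hk⟩ := Cov.p_eq_iff.1 (show Cov.p y = Cov.p e from hy).symm
  exact ⟨k, hk.symm⟩

include Ch in
theorem two_components : ∃ A B : Set X, IsConnected A ∧ IsConnected B ∧
    ⋃₀ {D | IsRationalCurve D} = A ∪ B := by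
  set R : Set X := ⋃₀ {D | IsRationalCurve D} with hR
  have hD : ∀ j, Cov.p '' (Ch.C j).image ⊆ R := fun j =>
    subset_sUnion_of_mem ((rational_iff Ch).2 ⟨j, rfl⟩)
  have hpt : ∀ j, Cov.p ((Ch.C j).f₀ 0) ∈ Cov.p '' (Ch.C j).image := fun j =>
    mem_image_of_mem _ ((Ch.C j).mem_image_f₀ 0)
  have hsub : ∀ j, Cov.p '' (Ch.C j).image ⊆ connectedComponentIn R (Cov.p ((Ch.C j).f₀ 0)) :=
    fun j => ((Ch.C j).isPreconnected_image.image _
      Cov.continuous_p.continuousOn).subset_connectedComponentIn (hpt j) (hD j)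
  obtain ⟨a, b, h⟩ := two_classes Ch.s Ch.s_pos Ch.word
    (fun j => connectedComponentIn R (Cov.p ((Ch.C j).f₀ 0))) (fun l => by
      obtain ⟨q, hq⟩ := Ch.node l
      have h1 : q ∈ (Ch.C l).image ∩ (Ch.C (l - Ch.s l)).image := by rw [hq]; rfl
      exact (connectedComponentIn_eq (hsub _ (mem_image_of_mem _ h1.2))).trans
        (connectedComponentIn_eq (hsub _ (mem_image_of_mem _ h1.1))).symm)
  refine ⟨_, _, isConnected_connectedComponentIn_iff.2 (hD a (hpt a)),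
    isConnected_connectedComponentIn_iff.2 (hD b (hpt b)), Subset.antisymm ?_
      (union_subset (connectedComponentIn_subset _ _) (connectedComponentIn_subset _ _))⟩
  rintro x ⟨D, hD', hx⟩
  obtain ⟨j, rfl⟩ := (rational_iff Ch).1 hD'
  rcases h j with h | h
  · exact Or.inl (h ▸ hsub j hx)
  · exact Or.inr (h ▸ hsub j hx)

include Ch in
theorem config (hn : 0 < n) : ∃ (φ : Fin n → P1Map X) (σ : Fin n → Fin n),
    (∀ D, IsRationalCurve D ↔ ∃ i, D = (φ i).image) ∧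
      Nod (fun i => ev' (φ i)) (fun i => tang' (φ i)) σ := by
  have hn' : (0 : ℤ) < n := by exact_mod_cast hn
  have hmod : ∀ l : ℤ, ∃ (i : Fin n) (k : ℤ), l = (i : ℕ) + k * n := fun l => by
    have h1 := Int.emod_nonneg l hn'.ne'
    have h2 := Int.emod_lt_of_pos l hn'
    refine ⟨⟨(l % n).toNat, by omega⟩, l / n, ?_⟩
    have h3 := Int.emod_add_ediv_mul l n
    simp only [Int.toNat_of_nonneg h1]
    exact h3.symm
  choose ρ κ hρ using hmod
  refine ⟨fun i => projP (Ch.C (i : ℕ)).toP1Map, fun i => ρ ((i : ℕ) - Ch.s (i : ℕ)), fun D => ?_,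
    nod Ch (fun i : Fin n => ((i : ℕ) : ℤ)) (fun i j k h => ?_) _ fun i => ⟨_, hρ _⟩⟩
  · rw [rational_iff Ch]
    simp only [image_projP]
    refine ⟨?_, fun ⟨i, hi⟩ => ⟨_, hi⟩⟩
    rintro ⟨j, rfl⟩
    refine ⟨ρ j, ?_⟩
    conv_lhs => rw [hρ j, C_shift_int, image_image]
    rfl
  · have hi : ((i : ℕ) : ℤ) < n := by exact_mod_cast i.2
    have hj : ((j : ℕ) : ℤ) < n := by exact_mod_cast j.2
    have hk : k = 0 := by
      rcases lt_trichotomy k 0 with h0 | h0 | h0
      · nlinarith [Int.natCast_nonneg (j : ℕ)]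
      · exact h0
      · nlinarith [Int.natCast_nonneg (i : ℕ)]
    subst hk
    exact ⟨Fin.ext (by omega), rfl⟩

include Ch in
theorem pi1 (x : X) : Nonempty (FundamentalGroup X x ≃* Multiplicative ℤ) := by
  obtain ⟨B⟩ := exists_blow Ch
  have : LocallyConnectedSpace X := ChartedSpace.locallyConnectedSpace C2 X
  have := Cov.connectedSpace O.B.prim
  have := simplyConnected B
  exact pi1_of_simplyConnected (hh := O.B.hh) x

end

variable {X : Type} [TopologicalSpace X] [ChartedSpace (ℂ × ℂ) X]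

attribute [local instance] Final.cs

theorem tang_old (φ : P1Map X) (z : OnePoint ℂ) :
    tang (Final.oldP1 φ) z = Final.T.symm (tang' φ z) := by
  have h : ∀ {g : ℂ → X}, MDifferentiable 𝓘(ℂ) 𝓘(ℂ, C2) g → ∀ z : ℂ,
      (mfderiv 𝓘(ℂ) 𝓘(ℂ, ℂ × ℂ) g z (1 : ℂ) : ℂ × ℂ) =
        Final.T.symm (mfderiv 𝓘(ℂ) 𝓘(ℂ, C2) g z (1 : ℂ)) := fun {g} hg z => by
    have h1 : mfderiv 𝓘(ℂ) 𝓘(ℂ, ℂ × ℂ) g z = _ :=
      (HasMFDerivAt.comp z (Final.hasMFDerivAt_id_symm (g z)) (hg z).hasMFDerivAt).mfderiv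
    rw [h1]
    rfl
  induction z using OnePoint.rec with
  | infty => exact h φ.holo₁ 0
  | coe z => exact h φ.holo₀ z

theorem isNodal_old {ι : Type} {φ : ι → P1Map X} {σ : ι → ι}
    (h : Nod (fun i => ev' (φ i)) (fun i => tang' (φ i)) σ) :
    IsNodal (fun i => Final.oldP1 (φ i)) σ := by
  have h1 := h.map Final.T.symm.toLinearEquiv
  have h2 : (fun i z => Final.T.symm.toLinearEquiv (tang' (φ i) z)) =
      fun i => tang (Final.oldP1 (φ i)) := by
    funext i z
    exact (tang_old _ z).symm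
  rw [h2] at h1
  exact h1

theorem rational_old_iff {D : Set X} : Final.IsRationalCurve D ↔ IsRationalCurve D :=
  ⟨fun ⟨φ, h1, h2⟩ => ⟨P267W33.newP1 φ, h1, h2⟩, Final.rational_old⟩

theorem main [T2Space X] [CompactSpace X] [ConnectedSpace X] [IsManifold 𝓘(ℂ, ℂ × ℂ) ω X]
    (h1 : P267W33.betti X 1 = 1) (hk : Final.KodairaNegInf X)
    (hm : ¬ ∃ D : Final.EffDiv X, P267W33.IsRatCurve D (-1)) (h2 : 0 < P267W33.betti X 2) :
    Final.HasGSS X ∧ (∀ x : X, Nonempty (FundamentalGroup X x ≃* Multiplicative ℤ)) ∧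
    (∃ (n : ℕ) (φ : Fin n → Final.P1Map X) (σ : Fin n → Fin n), P267W33.betti X 2 = n ∧
      Function.Injective (fun i => (φ i).image) ∧
      (∀ C, Final.IsRationalCurve C ↔ ∃ i, C = (φ i).image) ∧ IsNodal φ σ) ∧
    (∃ k > 0, ∃ φ : ZMod k → Final.P1Map X, IsNodal φ (· + 1)) ∧
    ∃ A B : Set X, IsConnected A ∧ IsConnected B ∧ ⋃₀ {C | Final.IsRationalCurve C} = A ∪ B := by
  have h0 : IsManifold 𝓘(ℂ, C2) ω X := Final.isManifold_cs
  obtain ⟨⟨n, hn⟩, h3⟩ := P267W33.deRham (X := X) (k := 1) le_rfl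
  have h4 : (0 : Cardinal) < n := hn ▸ h2
  have hn0 : 0 < n := by exact_mod_cast h4
  have hX : IsMinimalVII X n :=
    ⟨Final.betti_new (((P267W33.deRham (X := X) (k := 0) zero_le_one).2 1).1 (by simpa using h1)),
      Final.betti_new ((h3 n).1 hn), hn0, Final.kod_new hk, P267W33.minimal_of hm⟩
  obtain ⟨O, -⟩ := Asm.blockThm X n hX 0
  obtain ⟨Ch⟩ := H205.ordThm X n O
  obtain ⟨φ, σ, hφ, hN⟩ := config Ch hn0
  refine ⟨P267W33.gss_literal (Asm.gss_of_ord H205.ordThm) h1 hk hm h2, pi1 Ch,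
    ⟨n, fun i => Final.oldP1 (φ i), σ, hn, ?_, fun C => rational_old_iff.trans (hφ C),
      isNodal_old hN⟩, ?_, ?_⟩
  · have h5 := hN.injective
    simp only [range_ev'] at h5
    exact h5
  · have : Nonempty (Fin n) := ⟨⟨0, hn0⟩⟩
    obtain ⟨k, hk, u, hu, hτ⟩ := exists_cycle σ
    exact ⟨k, hk, _, isNodal_old (φ := fun i => φ (u i)) (hN.restrict hu hτ)⟩
  · simp only [rational_old_iff]
    exact two_components Ch

end Vale.Agent.N267
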